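import Vale.Agent.P025.R2.H577.Rows
import Vale.Agent.P025.R2.H722.BigLev
import Vale.Agent.P025.R2.H855.Target

/-!
# P025, A side (helper577), file 3: the section conjecture from statement (III)
-/

set_option linter.unusedSectionVars false

namespace P025H577

open IntermediateField
open Vale.Agent.P019P P025H720 P025H722 P025H851 P025H833 P025H505 P025H855 P025H641 P025H206

universe u v w

section geom

variable {k : Type u} {K : Type v} [Field k] [Field K] [Algebra k K] [CharZero k]

lemma mem_maxUnr_of_geom (x : AlgebraicClosure K) (hx : x ∈ geomField k K) : x ∈ maxUnr k K := by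
  induction hx using IntermediateField.adjoin_induction with
  | mem y hy =>
    obtain ⟨z, rfl⟩ := hy
    exact (maxUnr k K).algebraMap_mem z
  | algebraMap c => exact mem_maxUnr_of_const _ (mem_algebraicClosure_iff.1 c.2).isIntegral
  | add y z _ _ h1 h2 => exact add_mem h1 h2
  | inv y _ h1 => exact inv_mem h1
  | mul y z _ _ h1 h2 => exact mul_mem h1 h2

/-- `K k̄` in the maximal unramified extension -/
noncomputable def geomInc : geomField k K →ₐ[constClosure k K] maxUnr k K where
  toFun x := ⟨x, mem_maxUnr_of_geom x.1 x.2⟩
  map_one' := rfl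
  map_zero' := rfl
  map_mul' _ _ := rfl
  map_add' _ _ := rfl
  commutes' _ := rfl

/-- the levels of the maximal unramified extension -/
theorem bigLevels (hK : IsFunctionField k K) [CFF (constClosure k K) (geomField k K)]
    (hg : 2 ≤ gen (constClosure k K) (geomField k K)) :
    BigLevels (constClosure k K) (maxUnr k K) := by
  have : TrdegOne (constClosure k K) (maxUnr k K) := trdegOne hK
  intro t
  obtain ⟨s, hts, h⟩ := exists_big_level' (geomInc (k := k) (K := K)) t
  obtain ⟨-, hcff, hle⟩ := h s subset_rfl
  exact ⟨s, hcff, hts, hg.trans hle⟩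

/-- the maximal unramified extension is closed under unramified Kummer extensions -/
theorem kumMax (hK : IsFunctionField k K) : KumMax (constClosure k K) (maxUnr k K) := by
  obtain ⟨t, -, hfin⟩ := hK
  refine kumMax_maxUnr hfin (fun c => ?_)
  have h1 : IsIntegral k c := Algebra.IsIntegral.isIntegral c
  exact h1.algebraMap

end geom

section main

variable (p : ℕ) [Fact p.Prime] (k : Type u) [Field k] [Algebra ℚ_[p] k]
  [FiniteDimensional ℚ_[p] k] (K : Type v) [Field K] [Algebra k K] [CharZero k]

attribute [local instance 10] algK towerK galK towerN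

/-- **The main input from (III)** for the completion of `k̄`. -/
theorem mainInput_of_III [CFF (constClosure k K) (geomField k K)] (hK : IsFunctionField k K)
    (hg : 2 ≤ gen (constClosure k K) (geomField k K))
    (hIII : StmtIII.{v, v} (Cp p (constClosure k K))) : MainInput p k K := by
  have : TrdegOne (constClosure k K) (maxUnr k K) := trdegOne hK
  refine mainInput_of_tree (fun s k' _ _ _ _ _ _ _ => ?_)
  have hs := s.isSection
  let _ := secActionK k' s.toHom
  have := secEquiK k' hs
  have := secOpenK k' hs
  have := constQpTowerK (p := p) (k := k) (K := K) k'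
  have := constCommK (p := p) (k := k) (K := K) k'
  have := constOpenK (k := k) (K := K) k'
  have hfin : FiniteDimensional ℚ_[p] k' := FiniteDimensional.trans ℚ_[p] k k'
  exact treeOutput p (C := Cp p (constClosure k K)) Cp.norm_algebraMap hIII (kumMax hK)
    (bigLevels hK hg) (Cp.denseRange_algebraMap p _)

end main

/-- **The local `p`-adic section conjecture from (III)**. -/
theorem conjecture_of_III
    (hIII : ∀ (p : ℕ) [Fact p.Prime] (kb : Type v) [Field kb] [Algebra ℚ_[p] kb]
      [Algebra.IsAlgebraic ℚ_[p] kb] [IsAlgClosed kb], StmtIII.{v, v} (Cp p kb))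
    (p : ℕ) [Fact p.Prime] (k : Type u) [Field k] [Algebra ℚ_[p] k]
    [FiniteDimensional ℚ_[p] k] (K : Type v) [Field K] [Algebra k K] (hK : IsHyperbolic k K) :
    haveI : CharZero k := charZero_of_injective_algebraMap (algebraMap ℚ_[p] k).injective
    ∃ e : {V : ValuationSubring K // IsRatPlace k K V} ≃ Quotient (sectionSetoid k K),
      ∀ (V : {V : ValuationSubring K // IsRatPlace k K V}) (s : Section k K),
        e V = Quotient.mk (sectionSetoid k K) s ↔ ∃ W : ValuationSubring (maxUnr k K),
          W.comap (algebraMap K (maxUnr k K)) = V.1 ∧ Stabilizes s W := by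
  refine conjecture_of_gen (fun p _ k _ _ _ K _ _ _ _ hK _ hg => ?_) p k K hK
  have h1 : Algebra.IsAlgebraic ℚ_[p] k := inferInstance
  have h2 : Algebra.IsAlgebraic ℚ_[p] (constClosure k K) := constQpAlg
  exact mainInput_of_III p k K hK hg (hIII p (constClosure k K))

end P025H577
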