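import Vale.Agent.P025.R2.H577.Tree2
import Vale.Agent.P025.R2.H63.Row3
import Vale.Agent.P025.R2.H937.Row2e
import Vale.Agent.P025.R2.H937.Vert

/-! # P025, A side (helper577): the output of the tree side from (III) -/

set_option linter.unusedSectionVars false

namespace P025H577

open scoped TensorProduct Pointwise
open Vale.Agent.P019P P025H373 P025H492 P025H544 P025H720 P025H731 P025H851 P025H109
  P025H833 P025H281 P025H505 P025H970 P025H855 P025H641 Topology

universe u w

section out

variable (p : ℕ) [Fact p.Prime] {k : Type w} [Field k] [Algebra ℚ_[p] k]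
  [FiniteDimensional ℚ_[p] k] {C kb N : Type u} [NontriviallyNormedField C] [IsUltrametricDist C]
  [CompleteSpace C] [IsAlgClosed C] [CharZero C] [Field kb] [CharZero kb] [IsAlgClosed kb]
  [Algebra ℚ_[p] kb] [Algebra.IsAlgebraic ℚ_[p] kb] [Algebra k kb] [IsScalarTower ℚ_[p] k kb]
  [IsGalois k kb] [Field N] [Algebra kb C] [Algebra kb N] [TrdegOne kb N] [Algebra k N]
  [IsScalarTower k kb N]
  [MulSemiringAction Gal(kb/k) C] [MulSemiringAction Gal(kb/k) N]
  [NormAct Gal(kb/k) C] [OpenStab Gal(kb/k) N] [Equi Gal(kb/k) kb C] [Equi Gal(kb/k) kb N]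

/-- **The output of the tree side from (III)** -/
theorem treeOutput (hnorm : ∀ x : kb, ‖algebraMap kb C x‖ = spectralNorm ℚ_[p] kb x)
    (hIII : StmtIII.{u, u} C) (hN : KumMax kb N) (hbig : BigLevels kb N)
    (hd : DenseRange (algebraMap kb C)) : TreeOutput p k kb N :=
  treeOutput_of_cont p hnorm hIII hN hbig hd (fun T _ => P025H63.Cont)
    (fun T _ d => P025H937.exists_cont d) (fun T _ _ => P025H63.row2d T)
    (fun T hT F => P025H937.row2e T hT F) (fun h => P025H63.row3_padic (C := C) p hnorm h)

end out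

end P025H577
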