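import Vale.Agent.P025.R2.H109.VFix
import Vale.Agent.P025.R2.H851.A21
import Vale.Agent.P025.R2.H444.Uniq3
import Vale.Agent.P025.R2.H281.ExistP

/-!
# P025, A side (helper577), file 1: A-EXIST from (III)

`kb` is an algebraic closure of the finite extension `k` of `ℚ_p`, `C` its completion, `N` a field
over `kb` of transcendence degree one with an action of `G = Gal(kb/k)`, closed under unramified
Kummer extensions (`KumMax`), all of whose finite subsets lie in function fields of genus at least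
two (`BigLevels`). From (III): for every transcendental `T` fixed by `G`, the group `G` fixes a
`V`-vertex or a `D`-vertex of the tree of `T`, and at most one `D`-vertex.
-/

set_option linter.unusedSectionVars false

namespace P025H577

open scoped TensorProduct
open Vale.Agent.P019P P025H373 P025H492 P025H544 P025H720 P025H731 P025H851 P025H109
  P025H833 P025H281 P025H505 P025H970 Topology

universe u w

section roots

variable {C kb N : Type u} [NontriviallyNormedField C] [IsUltrametricDist C] [CompleteSpace C]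
  [IsAlgClosed C] [CharZero C] [Field kb] [CharZero kb] [IsAlgClosed kb] [Field N] [Algebra kb C]
  [Algebra kb N] [TrdegOne kb N]

/-- roots of all orders from roots of prime power order -/
theorem exists_root_of_primePow {K : Type*} [Field K]
    (h : ∀ q : ℕ, IsPrimePow q → ∀ x : K, ∃ y, y ^ q = x) {n : ℕ} (hn : n ≠ 0) (x : K) :
    ∃ y, y ^ n = x := by
  induction n using Nat.recOnMul generalizing x with
  | zero => exact absurd rfl hn
  | one => exact ⟨x, pow_one x⟩
  | prime q hq => exact h q hq.isPrimePow x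
  | mul a b iha ihb =>
    obtain ⟨y, rfl⟩ := iha (left_ne_zero_of_mul hn) x
    obtain ⟨z, rfl⟩ := ihb (right_ne_zero_of_mul hn) y
    exact ⟨z, by rw [← pow_mul, mul_comm b a]⟩

/-- (A2.1), all orders, in the residue field of the edge -/
theorem exists_root_res (hIII : StmtIII.{u, u} C) (hN : KumMax kb N) (hbig : BigLevels kb N)
    (hd : DenseRange (algebraMap kb C)) (T : N) [Fact (Transcendental kb T)] (w : ET C kb N T)
    {n : ℕ} (hn : n ≠ 0) (x : Res (RatFunc C) (F0 C) (NCT C kb N T) w) : ∃ y, y ^ n = x :=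
  exists_root_of_primePow (K := KK w)
    (fun _ hq x => exists_root_edge hIII hN hbig hd w hq x) hn x

theorem unitPow_all (hIII : StmtIII.{u, u} C) (hN : KumMax kb N) (hbig : BigLevels kb N)
    (hd : DenseRange (algebraMap kb C)) {T : N} [Fact (Transcendental kb T)] (v : VT C kb N T)
    {n : ℕ} (hn : n ≠ 0) : UnitPow n v :=
  unitPow_of_glue (patch C) (Nat.pos_of_ne_zero hn)
    (fun w x => exists_root_res hIII hN hbig hd T w hn x) (gluePow hN T hn) v

theorem unitRoot_all (hIII : StmtIII.{u, u} C) (hN : KumMax kb N) (hbig : BigLevels kb N)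
    (hd : DenseRange (algebraMap kb C)) {n : ℕ} (hn : n ≠ 0) : P025H444.UnitRoot C kb N n := by
  intro T _ x hx h1 h2 v
  obtain ⟨z, hz⟩ := unitPow_all hIII hN hbig hd v hn (jRes v x) (jRes v x⁻¹) (jRes_mem v h1)
    (jRes_mem v h2) (by rw [← map_mul, mul_inv_cancel₀ hx, map_one])
  obtain ⟨y, rfl⟩ := Ideal.Quotient.mk_surjective z
  have h3 : Ideal.Quotient.mk v.asIdeal (y ^ n) = Ideal.Quotient.mk v.asIdeal
      ((1 : F1 C) ⊗ₜ[RatFunc C] algebraMap N (NCT C kb N T) x) := by
    rw [map_pow]
    exact hz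
  exact ⟨y, Ideal.Quotient.eq.1 h3⟩

end roots

section exist

variable (p : ℕ) [Fact p.Prime] {k : Type w} [Field k] [Algebra ℚ_[p] k]
  [FiniteDimensional ℚ_[p] k] {C kb N : Type u} [NontriviallyNormedField C] [IsUltrametricDist C]
  [CompleteSpace C] [IsAlgClosed C] [CharZero C] [Field kb] [CharZero kb] [IsAlgClosed kb]
  [Algebra ℚ_[p] kb] [Algebra.IsAlgebraic ℚ_[p] kb] [Algebra k kb] [IsScalarTower ℚ_[p] k kb]
  [IsGalois k kb] [Field N] [Algebra kb C] [Algebra kb N] [TrdegOne kb N]
  [MulSemiringAction Gal(kb/k) C] [MulSemiringAction Gal(kb/k) N]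
  [NormAct Gal(kb/k) C] [OpenStab Gal(kb/k) N] [Equi Gal(kb/k) kb C] [Equi Gal(kb/k) kb N]

/-- **A-EXIST from (III)** -/
theorem exists_fixed (hnorm : ∀ x : kb, ‖algebraMap kb C x‖ = spectralNorm ℚ_[p] kb x)
    (hIII : StmtIII.{u, u} C) (hN : KumMax kb N) (hbig : BigLevels kb N)
    (hd : DenseRange (algebraMap kb C)) (T : N) [Fact (Transcendental kb T)]
    [FixedT Gal(kb/k) T] :
    ((∃ x : VT C kb N T, ∀ g : Gal(kb/k), g • x = x) ∨
      (∃ y : DT C kb N T, ∀ g : Gal(kb/k), g • y = y)) ∧
    (∀ x x' : VT C kb N T, (∀ g : Gal(kb/k), g • x = x) → (∀ g : Gal(kb/k), g • x' = x') →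
      x = x') ∧
    (∀ y y' : DT C kb N T, (∀ g : Gal(kb/k), g • y = y) → (∀ g : Gal(kb/k), g • y' = y') →
      y = y') := by
  obtain ⟨l, hl, hlp⟩ : ∃ l : ℕ, l.Prime ∧ l ≠ p := by
    by_cases h : p = 2
    · exact ⟨3, Nat.prime_three, by omega⟩
    · exact ⟨2, Nat.prime_two, fun h' => h h'.symm⟩
  have : Fact l.Prime := ⟨hl⟩
  have : NeZero l := ⟨hl.ne_zero⟩
  have : NeZero p := ⟨(Fact.out : p.Prime).ne_zero⟩
  have hcl : ∀ (T : N) [Fact (Transcendental kb T)] (n : ℕ) [NeZero n],
      TopClosed (RatFunc C) (F1 C) (F2 C) (NCT C kb N T) n :=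
    fun T _ n _ => topClosed hN T (NeZero.ne n)
  have hU : ∀ (q : ℕ) [Fact q.Prime] (H : Subgroup Gal(kb/k)), IsClosed (H : Set Gal(kb/k)) →
      IsPro q H → ValK p kb k q H →
      ∀ e e' : ET C kb N T, (∀ s : H, s • e = e) → (∀ s : H, s • e' = e') → e = e' := by
    intro q _ H hH hpro hval e e' he he'
    let _ : NormedField kb := nfK p kb
    have : IsUltrametricDist kb := ultraK p kb
    exact P025H444.fixed_edge_unique C kb N (k := k) hnorm hd hcl
      (fun n hn => unitRoot_all hIII hN hbig hd hn.ne') T q H hH hpro hval e e' he he'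
  obtain ⟨h1, h2, h3, -⟩ := exists_fixed_padic p kb k hlp (continuous_toV C kb N T)
    (continuous_toD C kb N T) (toV_smul Gal(kb/k) C kb N T) (toD_smul Gal(kb/k) C kb N T)
    (graphExact_NCT C kb N T l (hcl T l)) (graphExact_NCT C kb N T p (hcl T p)) hU
  exact ⟨h1, fun x x' hx hx' => h2 x x' (fun s => hx s) (fun s => hx' s),
    fun y y' hy hy' => h3 y y' (fun s => hy s) (fun s => hy' s)⟩

end exist

end P025H577
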