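import Vale.Agent.P025.R2.H577.Tree1
import Vale.Agent.P025.R2.H855.TreeOut

/-!
# P025, A side (helper577), file 2: the output of the tree side from (III) and from the relation
between disc vertices and places
-/

set_option linter.unusedSectionVars false

namespace P025H577

open scoped TensorProduct Pointwise
open Vale.Agent.P019P P025H373 P025H492 P025H544 P025H720 P025H731 P025H851 P025H109
  P025H833 P025H281 P025H505 P025H970 P025H855 P025H641 Topology

universe u w

section out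

variable (p : ℕ) [Fact p.Prime] {k : Type w} [Field k] [Algebra ℚ_[p] k]
  [FiniteDimensional ℚ_[p] k] {C kb N : Type u} [NontriviallyNormedField C] [IsUltrametricDist C]
  [CompleteSpace C] [IsAlgClosed C] [CharZero C] [Field kb] [CharZero kb] [IsAlgClosed kb]
  [Algebra ℚ_[p] kb] [Algebra.IsAlgebraic ℚ_[p] kb] [Algebra k kb] [IsScalarTower ℚ_[p] k kb]
  [IsGalois k kb] [Field N] [Algebra kb C] [Algebra kb N] [TrdegOne kb N] [Algebra k N]
  [IsScalarTower k kb N]
  [MulSemiringAction Gal(kb/k) C] [MulSemiringAction Gal(kb/k) N]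
  [NormAct Gal(kb/k) C] [OpenStab Gal(kb/k) N] [Equi Gal(kb/k) kb C] [Equi Gal(kb/k) kb N]

/-- **The output of the tree side from (III)** -/
theorem treeOutput_of_cont (hnorm : ∀ x : kb, ‖algebraMap kb C x‖ = spectralNorm ℚ_[p] kb x)
    (hIII : StmtIII.{u, u} C) (hN : KumMax kb N) (hbig : BigLevels kb N)
    (hd : DenseRange (algebraMap kb C))
    (Cont : ∀ (T : N) [Fact (Transcendental kb T)], DT C kb N T → ValuationSubring N → Prop)
    (h2a : ∀ (T : N) [Fact (Transcendental kb T)] (d : DT C kb N T), ∃ W : ValuationSubring N,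
      (∀ c : kb, algebraMap kb N c ∈ W) ∧ T ∉ W ∧ Cont T d W)
    (h2d : ∀ (T : N) [Fact (Transcendental kb T)] [FixedT Gal(kb/k) T] (g : Gal(kb/k))
      (d : DT C kb N T) (W : ValuationSubring N), Cont T d W → Cont T (g • d) (g • W))
    (h2e : ∀ (T : N), Transcendental kb T → ∀ F : Finset N, ∃ R : ℝ, ∀ c : kb,
      R ≤ ‖algebraMap kb C c‖ → ∀ (T' : N) [Fact (Transcendental kb T')],
      T' * algebraMap kb N c = T → ∀ (d : DT C kb N T') (W W' : ValuationSubring N),
      Cont T' d W → Cont T' d W' → ∀ x ∈ IntermediateField.adjoin kb (F : Set N), x ∈ W → x ∈ W')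
    (huniq : (∀ (T : N) [Fact (Transcendental kb T)] [FixedT Gal(kb/k) T] (y y' : DT C kb N T),
        (∀ s : Gal(kb/k), s • y = y) → (∀ s : Gal(kb/k), s • y' = y') → y = y') →
      ∀ W₁ W₂ : ValuationSubring N, (∀ c : kb, algebraMap kb N c ∈ W₁) →
        (∀ c : kb, algebraMap kb N c ∈ W₂) → W₁ ≠ ⊤ → W₂ ≠ ⊤ →
        (∀ σ : Gal(kb/k), ∀ x ∈ W₁, σ • x ∈ W₁) → (∀ σ : Gal(kb/k), ∀ x ∈ W₂, σ • x ∈ W₂) →
          W₁ = W₂) : TreeOutput p k kb N where
  chars ζ hζ S hS := by
    refine chars_of C N ?_ (fun T _ _ => (exists_fixed p hnorm hIII hN hbig hd T).1)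
      (fun T _ v => unitPow_all hIII hN hbig hd v (Fact.out : p.Prime).ne_zero)
      (fun T hT _ F => hD_of_cont C N Cont h2a h2d h2e T hT F) hζ S hS
    have h1 : (p : C) = algebraMap kb C (algebraMap ℚ_[p] kb p) := by
      rw [map_natCast, map_natCast]
    rw [h1, hnorm, spectralNorm_extends]
    exact Padic.norm_p_lt_one
  uniq W₁ W₂ h1 h2 h3 h4 h5 h6 :=
    huniq (fun T _ _ => (exists_fixed p hnorm hIII hN hbig hd T).2.2) W₁ W₂ h1 h2 h3 h4 h5 h6

end out

end P025H577
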